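import Vale.Agent.P284Y.Lib.TwB
import Vale.Agent.P284Z.G.SN

/-!
# P284Y, tubes: the holomorphic graph attached to a box has compact fibres
-/

set_option linter.all false

open scoped Topology
open Filter Set Metric MeasureTheory

noncomputable section

namespace Vale.Agent.P284Y.Tb

open Vale.Agent.P272.K Vale.Agent.P284Z Vale.Agent.P284Y.Lib

variable {n : ℕ} {Γ E : Type} [Group Γ] [TopologicalSpace E] [MulAction Γ E] {C : Cov n Γ E}
  {T : Tw C} {d p k₁ K : ℕ} (N : TBox T d p k₁ K)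

/-- the point `y` is related to the point `t` of the slice -/
def Rel (y : E) (t : Cm p) : Prop := t ∈ ball (0 : Cm p) N.r ∧ T.A k₁ (N.Ψ.symm (0, t)) y

open Classical in
/-- the point of the slice related to `y` -/
def shd (y : E) : Cm p := if h : ∃ t, Rel N y t then h.choose else 0

/-- the points near which `shd` is holomorphic -/
def Om : Set E :=
  {y | ∃ O, IsOpen O ∧ y ∈ O ∧ C.HolOn (shd N) O ∧ ∀ y' ∈ O, Rel N y' (shd N y')}

variable {N} {x y : E} {t t' : Cm p}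

theorem Rel.R (hK : k₁ + 5 ≤ K) (h : Rel N y t) : T.R (k₁ + 1) (N.Ψ.symm (0, t)) y :=
  T.back _ _ _ (N.good _ (N.symm_mem (N.slice_mem h.1)) _ (by omega)) h.2

theorem Rel.sep (hK : k₁ + 5 ≤ K) (h : Rel N x t) (h' : Rel N y t') (hR : T.R (k₁ + 3) x y) :
    t = t' := by
  have h1 := T.R_trans (T.R_trans (h.R hK) hR (l := k₁ + 4) (by omega) (by omega))
    (T.symm _ _ _ (h'.R hK)) (l := k₁ + 5) (by omega) (by omega)
  have h2 := N.sep _ (N.symm_mem (N.slice_mem h.1)) _ (N.symm_mem (N.slice_mem h'.1)) _ hK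
    (T.sub _ _ _ h1)
  rwa [N.right_inv (N.slice_mem h.1), N.right_inv (N.slice_mem h'.1)] at h2

theorem Rel.same (hK : k₁ + 5 ≤ K) (h : Rel N x t) (h' : Rel N y t) : T.R (k₁ + 3) x y :=
  T.R_trans (T.symm _ _ _ (h.R hK)) (h'.R hK) (by omega) (by omega)

theorem Rel.shd_eq (hK : k₁ + 5 ≤ K) (h : Rel N y t) : shd N y = t := by
  have h' : ∃ t, Rel N y t := ⟨t, h⟩
  rw [shd, dif_pos h']
  exact h'.choose_spec.sep hK h (T.R_refl _ _)

theorem isOpen_Om : IsOpen (Om N) := isOpen_iff_mem_nhds.2 fun y ⟨O, h1, h2, h3⟩ =>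
  mem_of_superset (h1.mem_nhds h2) fun y' hy' => ⟨O, h1, hy', h3⟩

theorem hol_Om : C.HolOn (shd N) (Om N) := fun γ a z hz ⟨O, _, h2, h3, _⟩ => h3 γ a z hz h2

theorem rel_Om (h : y ∈ Om N) : Rel N y (shd N y) := by
  obtain ⟨O, -, h2, -, h4⟩ := h
  exact h4 y h2

theorem rel_iff (hK : k₁ + 5 ≤ K) (hx : x ∈ Om N) (hy : y ∈ Om N) :
    shd N x = shd N y ↔ T.R (k₁ + 3) x y :=
  ⟨fun h => (rel_Om hx).same hK (h ▸ rel_Om hy), (rel_Om hx).sep hK (rel_Om hy)⟩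

theorem rel_src (h : y ∈ N.Ψ.source) : Rel N y (N.Ψ y).2 :=
  ⟨N.snd_mem h, by simpa only [N.Ψ.left_inv h] using N.plq _ (N.map_mem h)⟩

theorem src_Om (hK : k₁ + 5 ≤ K) (h : y ∈ N.Ψ.source) : y ∈ Om N :=
  ⟨_, N.Ψ.open_source, h, fun γ a z hz hy => (analyticAt_snd.comp (N.hol γ a z hz hy)).congr
    (((C.continuousAt_pt hz γ).eventually_mem (N.Ψ.open_source.mem_nhds hy)).mono fun w hw =>
      ((rel_src hw).shd_eq hK).symm), fun y' hy' => by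
    rw [(rel_src hy').shd_eq hK]
    exact rel_src hy'⟩

/-- the graph is closed -/
theorem mem_Om (hK : k₁ + 5 ≤ K) (h : ∃ᶠ y' in 𝓝 y, y' ∈ Om N ∧ shd N y' = t) :
    y ∈ Om N ∧ shd N y = t := by
  classical
  have h0 : Rel N y t := by
    obtain ⟨y', h1, h2⟩ := h.exists
    refine ⟨h2 ▸ (rel_Om h1).1, ?_⟩
    exact ((T.closed k₁).preimage (continuous_const.prodMk continuous_id :
      Continuous fun y : E => (N.Ψ.symm (0, t), y))).mem_of_frequently_of_tendsto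
      (h.mono fun y' hy' => hy'.2 ▸ (rel_Om hy'.1).2) tendsto_id
  refine ⟨?_, h0.shd_eq hK⟩
  obtain ⟨γ, b, w, hw, rfl⟩ := C.exists_pt y
  have w2 := C.B_mono one_le_two b hw
  have w4 := C.B14 hw
  have h24 : C.B 2 b ⊆ C.B 4 b := C.B_mono (by norm_num) b
  obtain ⟨S, hS, hS'⟩ := T.an' k₁ N.g N.a γ b
  set σ : Cm p → Cm n := fun t => C.co N.g N.a (N.Ψ.symm (0, t)) with hσ
  have s1 : ∀ t ∈ ball (0 : Cm p) N.r, AnalyticAt ℂ σ t := fun t ht =>
    AnalyticAt.comp (g := fun u => C.co N.g N.a (N.Ψ.symm u)) (f := fun t : Cm p => (0, t))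
      (N.hol' _ (N.slice_mem ht)) (analyticAt_const.prod analyticAt_id)
  have s2 := fun t (ht : t ∈ ball (0 : Cm p) N.r) => N.co_mem (N.symm_mem (N.slice_mem ht))
  have hO : C.B 2 b ×ˢ ball (0 : Cm p) N.r ∈ 𝓝 (w, t) :=
    ((C.isOpen_B 2 b).prod isOpen_ball).mem_nhds ⟨w2, h0.1⟩
  have hg : ∀ f : S, AnalyticOnNhd ℂ (fun q : Cm n × Cm p => f.1 (σ q.2, q.1))
      (C.B 2 b ×ˢ ball (0 : Cm p) N.r) := fun f q hq =>
    AnalyticAt.comp (g := f.1) (f := fun q : Cm n × Cm p => (σ q.2, q.1))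
      (hS f.1 f.2 _ ⟨(s2 _ hq.2).1, hq.1⟩)
      ((AnalyticAt.comp (f := Prod.snd) (s1 _ hq.2) analyticAt_snd).prod analyticAt_fst)
  obtain ⟨S₀, hS₀⟩ := G.sn _ S _ _ _ hO hg
  obtain ⟨g, g1, -, g2⟩ := G.gr (Cm n) p S₀.card
    (fun i q => (S₀.equivFin.symm i).1.1 (σ q.2, q.1))
    {q | q.1 ∈ C.B 2 b ∧ Rel N (C.pt γ b q.1) q.2} (w, t) (fun i => hg _ _ ⟨w2, h0.1⟩)
    (by
      filter_upwards [hO, hS₀] with q h1 h2
      have h3 := hS' _ (s2 _ h1.2).1 _ h1.1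
      simp only [(s2 _ h1.2).2] at h3
      refine ⟨fun h4 i => h3.1 h4.2.2 _ (S₀.equivFin.symm i).1.2, fun h4 => ⟨h1.1, h1.2,
        h3.2 fun f hf => h2 (fun i hi => ?_) ⟨f, hf⟩⟩⟩
      simpa using h4 (S₀.equivFin ⟨i, hi⟩))
    ⟨w2, h0⟩ (fun w t t' h1 h2 => h1.2.sep hK h2.2 (T.R_refl _ _))
    (fun M hM hM' => by
      refine ev_zero hM ?_
      rw [← C.map_pt' w4, frequently_map] at h
      refine (h.and_eventually ((((continuous_id.prodMk continuous_const).tendsto w).eventually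
        hM'.eventually_nhds).and ((C.isOpen_B 2 b).eventually_mem w2))).mono ?_
      rintro v ⟨⟨v1, v2⟩, v3, v4⟩
      have a1 : Tendsto (fun u => (u, shd N (C.pt γ b u))) (𝓝 v) (𝓝 (v, t)) :=
        v2 ▸ tendsto_id.prodMk_nhds (hol_Om γ b v (h24 v4) v1).continuousAt
      filter_upwards [a1.eventually v3, (C.isOpen_B 2 b).eventually_mem v4,
        (C.continuousAt_pt (h24 v4) γ).eventually_mem (isOpen_Om.mem_nhds v1)] with u u1 u2 u3
      exact u1 ⟨u2, rel_Om u3⟩)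
  obtain ⟨O, o1, o2, o3⟩ := _root_.eventually_nhds_iff.1 (g1.eventually_analyticAt.and g2)
  have o4 : O ⊆ C.B 4 b := fun v hv => h24 (o1 v hv).2.1
  refine ⟨C.pt γ b '' O, C.isOpen_image_pt γ o2 o4, ⟨w, o3, rfl⟩, C.holOn_of_chart ?_, ?_⟩
  · rintro _ ⟨v, hv, rfl⟩
    exact ⟨γ, b, v, o4 hv, rfl, (o1 v hv).1.congr ((o2.eventually_mem hv).mono fun u hu =>
      ((o1 u hu).2.2.shd_eq hK).symm)⟩
  · rintro _ ⟨v, hv, rfl⟩
    rw [(o1 v hv).2.2.shd_eq hK]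
    exact (o1 v hv).2.2

theorem isCompact_fib (hK : k₁ + 5 ≤ K) (t : Cm p) : IsCompact (Om N ∩ shd N ⁻¹' {t}) := by
  obtain ⟨L, hL, hL'⟩ := T.cpt (k₁ + 1) (N.Ψ.symm (0, t))
  exact hL.of_isClosed_subset (isClosed_iff_frequently.2 fun y hy => mem_Om hK hy) fun y hy =>
    hL' y ((show shd N y = t from hy.2) ▸ (rel_Om hy.1).R hK)

end Vale.Agent.P284Y.Tb
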