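import Vale.Agent.P284Y.Tb.PT
import Vale.Agent.P284Y.Lib.TwB

/-!
# P284Y, tubes: differentials and null sets in product charts
-/

set_option linter.all false

open scoped Topology
open Filter Set Metric MeasureTheory

noncomputable section

namespace Vale.Agent.P284Y.Tb

open Vale.Agent.P272.K Vale.Agent.P284Z Vale.Agent.P284Y.Lib

/-- a function which is constant on the fibre of a submersion kills the kernel -/
theorem ker_le {n d p : ℕ} (h : d + p = n) {f : Cm n → Cm p} {z : Cm n} (hf : AnalyticAt ℂ f z)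
    (hs : Function.Surjective (fderiv ℂ f z)) {W : Type} [NormedAddCommGroup W] [NormedSpace ℂ W]
    {f' : Cm n → W} (hf' : DifferentiableAt ℂ f' z) (hc : ∀ᶠ w in 𝓝 z, f w = f z → f' w = f' z)
    {v : Cm n} (hv : fderiv ℂ f z v = 0) : fderiv ℂ f' z v = 0 := by
  obtain ⟨Ψ, r, hr, htgt, h1, h2, -, h4, h5, h6⟩ := prod_chart h hf hs univ_mem
  have h7 := Ψ.map_source h1
  have d1 := (h4 z h1).differentiableAt.hasFDerivAt
  have d2 := (h5 _ h7).differentiableAt.hasFDerivAt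
  have e1 := (d2.comp z d1).unique ((hasFDerivAt_id z).congr_of_eventuallyEq
    ((Ψ.eventually_left_inverse h1).mono fun w hw => hw))
  have e2 := d1.snd.unique (hf.differentiableAt.hasFDerivAt.congr_of_eventuallyEq
    (Eventually.of_forall h6))
  have t1 : Tendsto (fun a : Cm d => (a, f z)) (𝓝 0) (𝓝 (Ψ z)) :=
    h2 ▸ (continuous_id.prodMk continuous_const).tendsto 0
  have d3 : HasFDerivAt f' (fderiv ℂ f' z) (Ψ.symm (0, f z)) := by
    rw [← h2, Ψ.left_inv h1]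
    exact hf'.hasFDerivAt
  have e3 := (d3.comp (0 : Cm d) (HasFDerivAt.comp (f := fun a : Cm d => (a, f z)) 0 (h2 ▸ d2)
    (hasFDerivAt_prodMk_left 0 (f z)))).unique ((hasFDerivAt_const (f' z) 0).congr_of_eventuallyEq
      (by
        filter_upwards [t1.eventually (Ψ.open_target.mem_nhds h7),
          ((Ψ.tendsto_symm h1).comp t1).eventually hc] with a a1 a2
        exact a2 (by rw [← h6, Function.comp_apply, Ψ.right_inv a1])))
  have e4 : fderiv ℂ Ψ z v = ((fderiv ℂ Ψ z v).1, 0) :=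
    Prod.ext rfl ((DFunLike.congr_fun e2 v).trans hv)
  have e5 := DFunLike.congr_fun e1 v
  have e6 := DFunLike.congr_fun e3 (fderiv ℂ Ψ z v).1
  simp only [ContinuousLinearMap.comp_apply, ContinuousLinearMap.id_apply,
    ContinuousLinearMap.inl_apply, ContinuousLinearMap.zero_apply] at e5 e6
  rwa [← e4, ← h2, e5] at e6

/-- the image of a null set by a differentiable map between spaces of the same dimension -/
theorem null_image {V W : Type} [NormedAddCommGroup V] [NormedSpace ℝ V] [FiniteDimensional ℝ V]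
    [MeasurableSpace V] [BorelSpace V] [NormedAddCommGroup W] [NormedSpace ℝ W]
    [FiniteDimensional ℝ W] [MeasurableSpace W] [BorelSpace W] (μ : Measure V) (ν : Measure W)
    [μ.IsAddHaarMeasure] [ν.IsAddHaarMeasure] (h : Module.finrank ℝ W = Module.finrank ℝ V)
    {f : V → W} {S : Set V} (hf : DifferentiableOn ℝ f S) (hS : μ S = 0) : ν (f '' S) = 0 := by
  let e : W ≃L[ℝ] V := ContinuousLinearEquiv.ofFinrankEq h
  have h1 : μ ((fun z => e (f z)) '' S) = 0 :=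
    addHaar_image_eq_zero_of_differentiableOn_of_addHaar_eq_zero μ
      (e.differentiable.comp_differentiableOn hf) hS
  have h2 : ν.map e ≪ μ := Measure.absolutelyContinuous_isAddHaarMeasure _ _
  refine measure_mono_null (t := e ⁻¹' ((fun z => e (f z)) '' S)) ?_
    (Measure.preimage_null_of_map_null e.continuous.measurable.aemeasurable (h2 h1))
  rintro _ ⟨z, hz, rfl⟩
  exact ⟨z, hz, rfl⟩

theorem rank_eq {n d p : ℕ} (h : d + p = n) :
    Module.finrank ℝ (Cm d × Cm p) = Module.finrank ℝ (Cm n) := by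
  simp only [Module.finrank_prod, Module.finrank_pi_fintype, Complex.finrank_real_complex,
    Finset.sum_const, Finset.card_univ, Fintype.card_fin, smul_eq_mul, ← h]
  ring

variable {n : ℕ} {Γ E : Type} [Group Γ] [TopologicalSpace E] [MulAction Γ E] {C : Cov n Γ E}
  {d p : ℕ} {sh : E → Cm p}

namespace GBox

variable (N : GBox C d sh) {y : E} {γ : Γ} {a : C.I} {z : Cm n}

theorem co_mem (h : y ∈ N.Ψ.source) :
    C.co N.g N.a y ∈ C.B 2 N.a ∧ C.pt N.g N.a (C.co N.g N.a y) = y := by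
  obtain ⟨z, hz, rfl⟩ := N.inch y h
  rw [C.co_pt (C.B_mono (show (2 : ℝ) ≤ 4 by norm_num) _ hz)]
  exact ⟨hz, rfl⟩

theorem an_symm {W : Type} [NormedAddCommGroup W] [NormedSpace ℂ W] {F : E → W} {Ω : Set E}
    (hF : C.HolOn F Ω) {v : Cm d × Cm p} (hv : v ∈ N.Ψ.target) (h : N.Ψ.symm v ∈ Ω) :
    AnalyticAt ℂ (fun v => F (N.Ψ.symm v)) v := by
  obtain ⟨e1, e2⟩ := N.co_mem (N.Ψ.map_target hv)
  refine ((hF N.g N.a _ (C.B_mono (by norm_num) _ e1) (by rwa [e2])).comp_of_eq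
    (N.hol' v hv) rfl).congr ?_
  filter_upwards [N.Ψ.open_target.mem_nhds hv] with w hw
  simp only [Function.comp_apply, (N.co_mem (N.Ψ.map_target hw)).2]

theorem hol_sh : C.HolOn sh N.Ψ.source := fun γ a z hz h =>
  (analyticAt_snd.comp (N.hol γ a z hz h)).congr
    (((C.continuousAt_pt hz γ).eventually_mem (N.Ψ.open_source.mem_nhds h)).mono fun _ hw =>
      N.snd _ hw)

theorem surj (hz : z ∈ C.B 4 a) (h : C.pt γ a z ∈ N.Ψ.source) :
    Function.Surjective (fderiv ℂ (fun w => sh (C.pt γ a w)) z) := by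
  have h1 := N.Ψ.map_source h
  have h2 := N.Ψ.left_inv h
  have h3 : N.Ψ.symm (N.Ψ (C.pt γ a z)) ∈ (C.ch γ a).source := h2.symm ▸ C.pt_mem hz γ
  have d1 := (N.an_symm (C.holOn_co γ a) h1 h3).differentiableAt.hasFDerivAt
  have d2 : HasFDerivAt (fun w => sh (C.pt γ a w)) (fderiv ℂ (fun w => sh (C.pt γ a w)) z)
      (C.co γ a (N.Ψ.symm (N.Ψ (C.pt γ a z)))) := by
    rw [h2, C.co_pt hz]
    exact (N.hol_sh γ a z hz h).differentiableAt.hasFDerivAt
  have e := (HasFDerivAt.comp (f := fun v => C.co γ a (N.Ψ.symm v)) _ d2 d1).unique (hasFDerivAt_snd.congr_of_eventuallyEq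
    ((N.ev_mem h1 (C.ch γ a).open_source h3).mono fun v hv => by
      simp only [Function.comp_apply, C.pt_co hv.2, N.sh_symm hv.1]))
  exact fun t => ⟨_, DFunLike.congr_fun e (0, t)⟩

/-- the preimage of a null set of the base -/
theorem null_pre (h : d + p = n) {Z : Set (Cm p)} (hZ : volume Z = 0) (γ : Γ) (a : C.I) :
    volume {z | z ∈ C.B 4 a ∧ C.pt γ a z ∈ N.Ψ.source ∧ sh (C.pt γ a z) ∈ Z} = 0 := by
  have : Measure.IsAddHaarMeasure (volume : Measure (Cm d × Cm p)) :=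
    Measure.prod.instIsAddHaarMeasure _ _
  refine measure_mono_null ?_ (null_image volume volume (rank_eq h).symm
    (f := fun v => C.co γ a (N.Ψ.symm v))
    (S := {v | v ∈ N.Ψ.target ∧ N.Ψ.symm v ∈ (C.ch γ a).source} ∩ univ ×ˢ Z)
    (fun v hv => ((N.an_symm (C.holOn_co γ a) hv.1.1 hv.1.2).differentiableAt.restrictScalars
      ℝ).differentiableWithinAt) (measure_mono_null inter_subset_right ?_))
  · rintro z ⟨h1, h2, h3⟩
    refine ⟨N.Ψ (C.pt γ a z), ⟨⟨N.Ψ.map_source h2, ?_⟩, trivial, by rwa [N.snd _ h2]⟩, ?_⟩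
    · rw [N.Ψ.left_inv h2]
      exact C.pt_mem h1 γ
    · simp only [N.Ψ.left_inv h2, C.co_pt h1]
  · rw [Measure.volume_eq_prod, Measure.prod_prod, hZ, mul_zero]

/-- almost everywhere in the box -/
theorem ae_symm (h : d + p = n) {Q : E → Prop} (hQ : ∀ᵐ z, z ∈ C.B 4 N.a → Q (C.pt N.g N.a z)) :
    ∀ᵐ v, v ∈ N.Ψ.target → Q (N.Ψ.symm v) := by
  have : Measure.IsAddHaarMeasure (volume : Measure (Cm d × Cm p)) :=
    Measure.prod.instIsAddHaarMeasure _ _
  rw [ae_iff] at hQ ⊢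
  refine measure_mono_null ?_ (null_image volume volume (rank_eq h)
    (f := fun z => N.Ψ (C.pt N.g N.a z))
    (S := {z | z ∈ C.B 4 N.a ∧ C.pt N.g N.a z ∈ N.Ψ.source} ∩ _)
    (fun z hz => ((N.hol N.g N.a z hz.1.1 hz.1.2).differentiableAt.restrictScalars
      ℝ).differentiableWithinAt) (measure_mono_null inter_subset_right hQ))
  intro v hv
  rw [mem_ofPred_eq, Classical.not_imp] at hv
  obtain ⟨h3, h4⟩ := N.co_mem (N.Ψ.map_target hv.1)
  have h5 := C.B_mono (show (2 : ℝ) ≤ 4 by norm_num) _ h3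
  exact ⟨C.co N.g N.a (N.Ψ.symm v), ⟨⟨h5, by rw [h4]; exact N.Ψ.map_target hv.1⟩,
    fun h6 => hv.2 (h4 ▸ h6 h5)⟩, by simp only [h4, N.Ψ.right_inv hv.1]⟩

end GBox

/-- a flow box as a product chart -/
def ofTBox {T : Tw C} {k₁ K : ℕ} (N : TBox T d p k₁ K) : GBox C d fun y => (N.Ψ y).2 :=
  ⟨N.Ψ, N.g, N.a, N.inch, N.hol, N.tgt ▸ N.hol', fun _ _ => rfl⟩

/-- the tangent space of the class of the point `z` of the chart `a` -/
def Kd (T : Tw C) (k p : ℕ) (a : C.I) (z : Cm n) : Submodule ℂ (Cm n) :=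
  ⨅ f : {f : Cm n → Cm p // DifferentiableAt ℂ f z ∧
    ∀ᶠ w in 𝓝 z, T.R k (C.pt 1 a z) (C.pt 1 a w) → f w = f z},
    LinearMap.ker (fderiv ℂ f.1 z).toLinearMap

theorem ker_iff (h : d + p = n) {T : Tw C} {k : ℕ} {U : Set E} (hU : IsOpen U)
    (hh : C.HolOn sh U) (hR : ∀ x ∈ U, ∀ y ∈ U, sh x = sh y ↔ T.R k x y) {γ : Γ} {a : C.I}
    {z : Cm n} (hz : z ∈ C.B 4 a) (hy : C.pt γ a z ∈ U)
    (hs : Function.Surjective (fderiv ℂ (fun w => sh (C.pt γ a w)) z)) (v : Cm n) :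
    fderiv ℂ (fun w => sh (C.pt γ a w)) z v = 0 ↔ v ∈ Kd T k p a z := by
  have h1 : ∀ᶠ w in 𝓝 z, sh (C.pt γ a z) = sh (C.pt γ a w) ↔ T.R k (C.pt 1 a z) (C.pt 1 a w) :=
    ((C.continuousAt_pt hz γ).eventually_mem (hU.mem_nhds hy)).mono fun w hw => by
      rw [hR _ hy _ hw, C.pt_eq γ, C.pt_eq γ a w, T.R_smul]
  rw [Kd, Submodule.mem_iInf]
  exact ⟨fun hv f => ker_le h (hh γ a z hz hy) hs f.2.1 ((f.2.2.and h1).mono fun w hw e =>
    hw.1 (hw.2.1 e.symm)) hv, fun hv => hv ⟨_, (hh γ a z hz hy).differentiableAt,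
      h1.mono fun w hw e => (hw.2 e).symm⟩⟩

end Vale.Agent.P284Y.Tb
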