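import Vale.Agent.P284Y.Tb.Defs
import Vale.Agent.P284Z.F0.Cov

/-!
# P284Y, tubes: product charts
-/

set_option linter.all false

open scoped Topology
open Filter Set Metric MeasureTheory

noncomputable section

namespace Vale.Agent.P284Y.Tb

open Vale.Agent.P272.K Vale.Agent.P284Z Vale.Agent.P284Y.Lib

/-- a surjective linear map is the second component of an isomorphism -/
theorem exists_compl {n d p : ℕ} (h : d + p = n) {L : Cm n →L[ℂ] Cm p}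
    (hL : Function.Surjective L) :
    ∃ π : Cm n →L[ℂ] Cm d, Function.Injective (π.prod L) := by
  have h1 : Module.finrank ℂ (LinearMap.ker L.toLinearMap) = Module.finrank ℂ (Cm d) := by
    have := LinearMap.finrank_range_add_finrank_ker L.toLinearMap
    rw [LinearMap.range_eq_top.2 hL, finrank_top] at this
    simp only [Module.finrank_fin_fun] at this ⊢
    omega
  obtain ⟨q, hq⟩ := (LinearMap.ker L.toLinearMap).exists_isCompl
  let e := LinearEquiv.ofFinrankEq _ _ h1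
  refine ⟨LinearMap.toContinuousLinearMap (e.toLinearMap ∘ₗ Submodule.linearProjOfIsCompl _ _ hq),
    (injective_iff_map_eq_zero _).2 fun v hv => ?_⟩
  obtain ⟨h2, h3⟩ := Prod.mk_eq_zero.1 hv
  have h4 : Submodule.linearProjOfIsCompl _ _ hq v = 0 := e.map_eq_zero_iff.1 h2
  have h5 := Submodule.linearProjOfIsCompl_apply_left hq ⟨v, h3⟩
  exact congrArg Subtype.val (h5.symm.trans h4)

/-- a product chart for a submersion -/
theorem prod_chart {n d p : ℕ} (h : d + p = n) {f : Cm n → Cm p} {z₀ : Cm n}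
    (hf : AnalyticAt ℂ f z₀) (hs : Function.Surjective (fderiv ℂ f z₀)) {V : Set (Cm n)}
    (hV : V ∈ 𝓝 z₀) :
    ∃ (Ψ : OpenPartialHomeomorph (Cm n) (Cm d × Cm p)) (r : ℝ), 0 < r ∧
      Ψ.target = ball 0 5 ×ˢ ball (f z₀) r ∧ z₀ ∈ Ψ.source ∧ Ψ z₀ = (0, f z₀) ∧ Ψ.source ⊆ V ∧
      AnalyticOnNhd ℂ Ψ Ψ.source ∧ AnalyticOnNhd ℂ Ψ.symm Ψ.target ∧
      ∀ z, (Ψ z).2 = f z := by
  obtain ⟨π, hπ⟩ := exists_compl h hs
  set Φ : Cm n → Cm d × Cm p := fun z => (π (z - z₀), f z) with hΦ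
  have hΦa : AnalyticAt ℂ Φ z₀ :=
    ((π.analyticAt _).comp (analyticAt_id.sub analyticAt_const)).prod hf
  have hΦ0 : Φ z₀ = (0, f z₀) := by simp [hΦ]
  have hΦd : HasFDerivAt Φ (π.prod (fderiv ℂ f z₀)) z₀ := by
    have := (π.hasFDerivAt.comp z₀ ((hasFDerivAt_id z₀).sub_const z₀)).prodMk
      hf.differentiableAt.hasFDerivAt
    rwa [ContinuousLinearMap.comp_id] at this
  set L' : Cm n ≃L[ℂ] (Cm d × Cm p) := ((π.prod (fderiv ℂ f z₀)).toLinearMap.linearEquivOfInjective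
    hπ (by simp [h])).toContinuousLinearEquiv
  have hL' : fderiv ℂ Φ z₀ = L' := by
    rw [hΦd.fderiv]
    rfl
  have hst : HasStrictFDerivAt Φ (L' : _ →L[ℂ] _) z₀ := hL' ▸ hΦa.hasStrictFDerivAt
  set Φ₀ := hst.toOpenPartialHomeomorph Φ
  have hm : z₀ ∈ Φ₀.source := hst.mem_toOpenPartialHomeomorph_source
  have hsa : AnalyticAt ℂ Φ₀.symm (Φ z₀) := Φ₀.analyticAt_symm' hm hΦa hL'
  have ht : Tendsto Φ₀.symm (𝓝 (Φ z₀)) (𝓝 z₀) := Φ₀.tendsto_symm hm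
  obtain ⟨r, hr, hb⟩ := Metric.eventually_nhds_iff_ball.1 (hsa.eventually_analyticAt.and
    ((Φ₀.open_target.eventually_mem (Φ₀.map_source hm)).and
      (ht.eventually (hΦa.eventually_analyticAt.and hV))))
  have hc : ((5 / r : ℝ) : ℂ) ≠ 0 := by
    rw [Complex.ofReal_ne_zero]
    positivity
  set S : (Cm d × Cm p) ≃L[ℂ] (Cm d × Cm p) :=
    (ContinuousLinearEquiv.smulLeft (R₁ := ℂ) (M₁ := Cm d) (Units.mk0 _ hc)).prodCongr
      (ContinuousLinearEquiv.refl ℂ _) with hS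
  have hS1 : ∀ w : Cm d × Cm p, S w = (((5 / r : ℝ) : ℂ) • w.1, w.2) := fun w => rfl
  have hS2 : ∀ w : Cm d × Cm p, w ∈ ball (Φ z₀) r ↔ S w ∈ ball (0 : Cm d) 5 ×ˢ ball (f z₀) r := by
    intro w
    rw [hΦ0, ← ball_prod_same, hS1, mem_prod, mem_prod, mem_ball_zero_iff, mem_ball_zero_iff,
      norm_smul, Complex.norm_real, Real.norm_of_nonneg (by positivity), div_mul_eq_mul_div,
      div_lt_iff₀ hr]
    exact and_congr_left fun _ => by constructor <;> intro <;> linarith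
  set Ψ := ((Φ₀.symm.restrOpen _ (isOpen_ball (x := Φ z₀) (ε := r))).symm.trans
    S.toHomeomorph.toOpenPartialHomeomorph) with hΨ
  have hsrc : ∀ z, z ∈ Ψ.source ↔ z ∈ Φ₀.source ∧ Φ z ∈ ball (Φ z₀) r := fun z => by
    simp only [hΨ, OpenPartialHomeomorph.trans_source, Homeomorph.toOpenPartialHomeomorph_source,
      preimage_univ, inter_univ]
    rfl
  have htgt : Ψ.target = ball 0 5 ×ˢ ball (f z₀) r := by
    ext w
    obtain ⟨w, rfl⟩ := S.surjective w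
    rw [← hS2]
    simp only [hΨ, OpenPartialHomeomorph.trans_target, Homeomorph.toOpenPartialHomeomorph_target,
      univ_inter, mem_preimage, Homeomorph.toOpenPartialHomeomorph_symm_apply,
      OpenPartialHomeomorph.symm_target, OpenPartialHomeomorph.restrOpen_source,
      OpenPartialHomeomorph.symm_source, mem_inter_iff]
    have e : S.toHomeomorph.symm (S w) = w := S.symm_apply_apply w
    rw [e]
    exact ⟨fun h => h.2, fun h => ⟨(hb w h).2.1, h⟩⟩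
  have hz : ∀ z ∈ Ψ.source, AnalyticAt ℂ Φ z ∧ z ∈ V := fun z hz => by
    obtain ⟨h1, h2⟩ := (hsrc z).1 hz
    have := (hb _ h2).2.2
    rwa [show Φ₀.symm (Φ z) = z from Φ₀.left_inv h1] at this
  refine ⟨Ψ, r, hr, htgt, (hsrc _).2 ⟨hm, mem_ball_self hr⟩, ?_, fun z h1 => (hz z h1).2,
    fun z h1 => (S.analyticAt _).comp (hz z h1).1, fun w hw => ?_, fun z => rfl⟩
  · show S (Φ z₀) = _
    rw [hΦ0, hS1, smul_zero]
  · obtain ⟨w, rfl⟩ := S.surjective w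
    rw [htgt, ← hS2] at hw
    exact AnalyticAt.comp_of_eq (g := Φ₀.symm) (f := S.symm) (hb w hw).1 (S.symm.analyticAt _)
      (S.symm_apply_apply w)

variable {n : ℕ} {Γ E : Type} [Group Γ] [TopologicalSpace E] [MulAction Γ E] {C : Cov n Γ E}
  {d p : ℕ} {sh : E → Cm p} {t₁ : Cm p} {r : ℝ}

/-- a chart whose second component is `sh` -/
structure GBox (C : Cov n Γ E) (d : ℕ) {p : ℕ} (sh : E → Cm p) where
  Ψ : OpenPartialHomeomorph E (Cm d × Cm p)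
  g : Γ
  a : C.I
  inch : ∀ y ∈ Ψ.source, ∃ z ∈ C.B 2 a, y = C.pt g a z
  hol : C.HolOn Ψ Ψ.source
  hol' : AnalyticOnNhd ℂ (fun u => C.co g a (Ψ.symm u)) Ψ.target
  snd : ∀ y ∈ Ψ.source, (Ψ y).2 = sh y

/-- restriction to a product -/
def GBox.res (N : GBox C d sh) (t₀ : Cm p) (R : ℝ) (h : ball 0 4 ×ˢ ball t₀ R ⊆ N.Ψ.target) :
    PBox C d sh t₀ R where
  Ψ := (N.Ψ.symm.restrOpen _ ((isOpen_ball (x := 0) (ε := 4)).prod
    (isOpen_ball (x := t₀) (ε := R)))).symm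
  tgt := inter_eq_right.2 h
  g := N.g
  a := N.a
  inch := fun y hy => N.inch y hy.1
  hol := fun γ b z hz hy => N.hol γ b z hz hy.1
  hol' := N.hol'.mono h
  snd := fun y hy => N.snd y hy.1

theorem GBox.res_src (N : GBox C d sh) {t₀ : Cm p} {R : ℝ}
    (h : ball 0 4 ×ˢ ball t₀ R ⊆ N.Ψ.target) {y : E} : y ∈ (N.res t₀ R h).Ψ.source ↔
      y ∈ N.Ψ.source ∧ ‖(N.Ψ y).1‖ < 4 ∧ sh y ∈ ball t₀ R :=
  and_congr_right fun hy => by
    rw [← N.snd y hy, ← mem_ball_zero_iff]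
    rfl

theorem exists_gbox (h : d + p = n) {Ω : Set E} (hh : C.HolOn sh Ω) {y : E} (hy : y ∈ Ω)
    (hs : ∀ γ a, ∀ z ∈ C.B 4 a, C.pt γ a z = y →
      Function.Surjective (fderiv ℂ (fun w => sh (C.pt γ a w)) z)) {V : Set E} (hV : V ∈ 𝓝 y) :
    ∃ (N : GBox C d sh) (r : ℝ), 0 < r ∧ N.Ψ.target = ball 0 5 ×ˢ ball (sh y) r ∧
      y ∈ N.Ψ.source ∧ (N.Ψ y).1 = 0 ∧ N.Ψ.source ⊆ V := by
  obtain ⟨g, a, z, hz, rfl⟩ := C.exists_pt y
  have z4 := C.B14 hz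
  obtain ⟨Ψ, r, hr, htgt, h1, h2, h3, h4, h5, h6⟩ := prod_chart h (hh g a z z4 hy)
    (hs g a z z4 rfl) (inter_mem ((C.isOpen_B 2 a).mem_nhds (C.B_mono one_le_two a hz))
      ((C.continuousAt_pt z4 g).preimage_mem_nhds hV))
  have h24 : Ψ.source ⊆ C.B 4 a := fun w hw => C.B_mono (by norm_num) a (h3 hw).1
  have ht : ((C.ch g a).trans Ψ).target = Ψ.target := by
    rw [OpenPartialHomeomorph.trans_target]
    exact inter_eq_left.2 fun u hu => h24 (Ψ.map_target hu)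
  refine ⟨⟨(C.ch g a).trans Ψ, g, a, fun y hy => ⟨_, (h3 hy.2).1, (C.pt_co hy.1).symm⟩,
    fun γ b w hw hy => ?_, fun u hu => ?_, fun y hy => ?_⟩, r, hr, ht.trans htgt,
    ⟨C.pt_mem z4 g, ?_⟩, ?_, fun y hy => ?_⟩
  · exact AnalyticAt.comp (f := fun w => C.co g a (C.pt γ b w)) (h4 _ hy.2)
      (C.holOn_co g a γ b w hw hy.1)
  · rw [ht] at hu
    refine (h5 u hu).congr ?_
    filter_upwards [Ψ.open_target.mem_nhds hu] with v hv
    exact (C.co_pt (h24 (Ψ.map_target hv)) g).symm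
  · exact (h6 _).trans (congrArg sh (C.pt_co hy.1))
  · show C.co g a _ ∈ Ψ.source
    rwa [C.co_pt z4]
  · show (Ψ (C.co g a _)).1 = 0
    rw [C.co_pt z4, h2]
  · rw [← C.pt_co hy.1]
    exact (h3 hy.2).2

namespace PBox

variable (N : PBox C d sh t₁ r) {y : E} {u : Cm d} {t : Cm p}

/-- forget the target -/
def toG : GBox C d sh := ⟨N.Ψ, N.g, N.a, N.inch, N.hol, N.tgt ▸ N.hol', N.snd⟩

theorem mem_tgt : (u, t) ∈ N.Ψ.target ↔ ‖u‖ < 4 ∧ t ∈ ball t₁ r := by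
  rw [N.tgt, mem_prod, mem_ball_zero_iff]

theorem src (hu : ‖u‖ < 4) (ht : t ∈ ball t₁ r) : N.Ψ.symm (u, t) ∈ N.Ψ.source :=
  N.Ψ.map_target (N.mem_tgt.2 ⟨hu, ht⟩)

theorem right_inv (hu : ‖u‖ < 4) (ht : t ∈ ball t₁ r) : N.Ψ (N.Ψ.symm (u, t)) = (u, t) :=
  N.Ψ.right_inv (N.mem_tgt.2 ⟨hu, ht⟩)

theorem sh_symm (hu : ‖u‖ < 4) (ht : t ∈ ball t₁ r) : sh (N.Ψ.symm (u, t)) = t := by
  rw [← N.snd _ (N.src hu ht), N.right_inv hu ht]

theorem fst_lt (hy : y ∈ N.Ψ.source) : ‖(N.Ψ y).1‖ < 4 :=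
  (N.mem_tgt.1 (N.Ψ.map_source hy)).1

theorem sh_mem (hy : y ∈ N.Ψ.source) : sh y ∈ ball t₁ r :=
  N.snd y hy ▸ (N.mem_tgt.1 (N.Ψ.map_source hy)).2

theorem left_inv (hy : y ∈ N.Ψ.source) : N.Ψ.symm ((N.Ψ y).1, sh y) = y := by
  rw [← N.snd y hy]
  exact N.Ψ.left_inv hy

theorem co_mem (h : y ∈ N.Ψ.source) :
    C.co N.g N.a y ∈ C.B 2 N.a ∧ C.pt N.g N.a (C.co N.g N.a y) = y := by
  obtain ⟨z, hz, rfl⟩ := N.inch y h
  rw [C.co_pt (C.B_mono (show (2 : ℝ) ≤ 4 by norm_num) _ hz)]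
  exact ⟨hz, rfl⟩

/-- holomorphic maps read in the box -/
theorem an_symm {W : Type} [NormedAddCommGroup W] [NormedSpace ℂ W] {F : E → W} {Ω : Set E}
    (hF : C.HolOn F Ω) {v : Cm d × Cm p} (hv : v ∈ N.Ψ.target) (h : N.Ψ.symm v ∈ Ω) :
    AnalyticAt ℂ (fun v => F (N.Ψ.symm v)) v := by
  obtain ⟨e1, e2⟩ := N.co_mem (N.Ψ.map_target hv)
  refine ((hF N.g N.a _ (C.B_mono (by norm_num) _ e1) (by rwa [e2])).comp_of_eq
    (N.hol' v (N.tgt ▸ hv)) rfl).congr ?_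
  filter_upwards [N.Ψ.open_target.mem_nhds hv] with w hw
  simp only [Function.comp_apply, (N.co_mem (N.Ψ.map_target hw)).2]

/-- restriction to a smaller ball -/
def res (t₀ : Cm p) (R : ℝ) (h : ball t₀ R ⊆ ball t₁ r) : PBox C d sh t₀ R :=
  N.toG.res t₀ R (by rw [toG, N.tgt]; exact prod_mono Subset.rfl h)

theorem res_src {t₀ : Cm p} {R : ℝ} (h : ball t₀ R ⊆ ball t₁ r) :
    y ∈ (N.res t₀ R h).Ψ.source ↔ y ∈ N.Ψ.source ∧ sh y ∈ ball t₀ R :=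
  (N.toG.res_src _).trans (and_congr_right fun hy => and_iff_right (N.fst_lt hy))

/-- translation -/
def smul (γ : Γ) : PBox C d (fun y => sh (γ⁻¹ • y)) t₁ r where
  Ψ := (Homeomorph.mk (MulAction.toPerm γ⁻¹) (C.cont _) (C.cont _)).transOpenPartialHomeomorph N.Ψ
  tgt := N.tgt
  g := γ * N.g
  a := N.a
  inch := fun y hy => by
    obtain ⟨z, hz, e⟩ := N.inch _ hy
    refine ⟨z, hz, ?_⟩
    rw [← C.smul_pt, ← e]
    exact (smul_inv_smul γ y).symm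
  hol := N.hol.smul C γ⁻¹
  hol' := fun u hu => (N.hol' u hu).congr (Eventually.of_forall fun v => by
    show _ = C.co (γ * N.g) N.a (γ⁻¹⁻¹ • N.Ψ.symm v)
    rw [inv_inv, C.co_smul])
  snd := fun y hy => N.snd _ hy

theorem smul_src (γ : Γ) : y ∈ (N.smul γ).Ψ.source ↔ γ⁻¹ • y ∈ N.Ψ.source := Iff.rfl

theorem smul_apply (γ : Γ) (y : E) : (N.smul γ).Ψ y = N.Ψ (γ⁻¹ • y) := rfl

theorem smul_symm (γ : Γ) (v : Cm d × Cm p) : (N.smul γ).Ψ.symm v = γ • N.Ψ.symm v := by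
  show γ⁻¹⁻¹ • N.Ψ.symm v = _
  rw [inv_inv]

end PBox

end Vale.Agent.P284Y.Tb
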