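import Vale.Agent.P284Y.Lib.TwSpec

/-!
# P284Y, tubes (A9): definitions
-/

open scoped Topology
open Filter Set Metric MeasureTheory

noncomputable section

namespace Vale.Agent.P284Y.Tb

open Vale.Agent.P272.K Vale.Agent.P284Z Vale.Agent.P284Y.Lib

variable {n : ℕ} {Γ E : Type} [Group Γ] [TopologicalSpace E] [MulAction Γ E]

/-- A product chart of the map `sh` over the ball `ball t₁ r`. -/
structure PBox (C : Cov n Γ E) (d : ℕ) {p : ℕ} (sh : E → Cm p) (t₁ : Cm p) (r : ℝ) where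
  Ψ : OpenPartialHomeomorph E (Cm d × Cm p)
  tgt : Ψ.target = ball 0 4 ×ˢ ball t₁ r
  g : Γ
  a : C.I
  inch : ∀ y ∈ Ψ.source, ∃ z ∈ C.B 2 a, y = C.pt g a z
  hol : C.HolOn Ψ Ψ.source
  hol' : AnalyticOnNhd ℂ (fun u => C.co g a (Ψ.symm u)) (ball 0 4 ×ˢ ball t₁ r)
  snd : ∀ y ∈ Ψ.source, (Ψ y).2 = sh y

/-- The inner plaques of two product charts meet in a ball, uniformly over the base. -/
def PBox.Adj {C : Cov n Γ E} {d p : ℕ} {sh : E → Cm p} {t₁ : Cm p} {r : ℝ}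
    (N N' : PBox C d sh t₁ r) : Prop :=
  ∃ u : Cm d, ∃ δ > (0 : ℝ), ball u δ ⊆ ball 0 1 ∧ ∀ u' ∈ ball u δ, ∀ t ∈ ball t₁ r,
    N.Ψ.symm (u', t) ∈ N'.Ψ.source ∧ ‖(N'.Ψ (N.Ψ.symm (u', t))).1‖ < 1

/-- A proper holomorphic submersion `sh : U → ball t₁ r` with connected fibres, given by finitely many
product charts with a connected nerve. -/
structure PT (C : Cov n Γ E) (d p : ℕ) where
  U : Set E
  sh : E → Cm p
  t₁ : Cm p
  r : ℝ
  r_pos : 0 < r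
  opn : IsOpen U
  hol : C.HolOn sh U
  J : Type
  fin : Finite J
  j₀ : J
  box : J → PBox C d sh t₁ r
  sub : ∀ i, (box i).Ψ.source ⊆ U
  cover : ∀ y ∈ U, ∃ i, y ∈ (box i).Ψ.source ∧ ‖((box i).Ψ y).1‖ < 1
  nerve : ∀ i j, Relation.ReflTransGen (fun i j => (box i).Adj (box j)) i j
  proper : ∀ K : Set (Cm p), IsCompact K → K ⊆ ball t₁ r → IsCompact (U ∩ sh ⁻¹' K)

/-- A tube of the tower: the fibres are the classes of `R (k₁ + 3)`. -/
structure TT {C : Cov n Γ E} {T : Tw C} (F : TFol T) extends PT C F.d F.p where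
  rel : ∀ x ∈ U, ∀ y ∈ U, sh x = sh y ↔ T.R (F.k₁ + 3) x y

end Vale.Agent.P284Y.Tb
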