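import Vale.Agent.P284Y.Tb.Box

/-!
# P284Y, tubes: a compact regular fibre has a tube
-/

set_option linter.all false

open scoped Topology
open Filter Set Metric MeasureTheory

noncomputable section

namespace Vale.Agent.P284Y.Tb

open Vale.Agent.P272.K Vale.Agent.P284Z Vale.Agent.P284Y.Lib

variable {n : ℕ} {Γ E : Type} [Group Γ] [TopologicalSpace E] [MulAction Γ E] {C : Cov n Γ E}
  {d p : ℕ} {sh : E → Cm p} {t₁ : Cm p}

namespace GBox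

variable (N : GBox C d sh)

/-- the inner part -/
def In : Set E := N.Ψ.source ∩ N.Ψ ⁻¹' (ball 0 1 ×ˢ univ)

theorem isOpen_In : IsOpen N.In := N.Ψ.isOpen_inter_preimage (isOpen_ball.prod isOpen_univ)

theorem mem_In {y : E} : y ∈ N.In ↔ y ∈ N.Ψ.source ∧ ‖(N.Ψ y).1‖ < 1 := by
  simp [In]

theorem sh_symm {v : Cm d × Cm p} (hv : v ∈ N.Ψ.target) : sh (N.Ψ.symm v) = v.2 := by
  rw [← N.snd _ (N.Ψ.map_target hv), N.Ψ.right_inv hv]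

theorem left_inv {y : E} (hy : y ∈ N.Ψ.source) : N.Ψ.symm ((N.Ψ y).1, sh y) = y := by
  rw [← N.snd y hy]
  exact N.Ψ.left_inv hy

theorem ev_mem {v : Cm d × Cm p} (hv : v ∈ N.Ψ.target) {O : Set E} (hO : IsOpen O)
    (h : N.Ψ.symm v ∈ O) : ∀ᶠ w in 𝓝 v, w ∈ N.Ψ.target ∧ N.Ψ.symm w ∈ O :=
  (N.Ψ.open_target.eventually_mem hv).and ((N.Ψ.continuousAt_symm hv).eventually_mem (hO.mem_nhds h))

/-- uniform adjacency -/
theorem adj (N' : GBox C d sh) {x : E} (h : x ∈ N.In) (h' : x ∈ N'.In) :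
    ∃ u : Cm d, ∃ δ > (0 : ℝ), ball u δ ⊆ ball 0 1 ∧ ∀ᶠ t in 𝓝 (sh x), ∀ u' ∈ ball u δ,
      N.Ψ.symm (u', t) ∈ N'.In := by
  obtain ⟨h1, h2⟩ := N.mem_In.1 h
  have h3 := N.Ψ.map_source h1
  have h4 : ∀ᶠ w : Cm d × Cm p in 𝓝 (N.Ψ x), w.1 ∈ ball (0 : Cm d) 1 :=
    continuousAt_fst.eventually_mem (isOpen_ball.mem_nhds (mem_ball_zero_iff.2 h2))
  obtain ⟨δ, hδ, h5⟩ := Metric.eventually_nhds_iff_ball.1
    ((N.ev_mem h3 N'.isOpen_In (by rwa [N.Ψ.left_inv h1])).and h4)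
  have h6 : ∀ u' ∈ ball (N.Ψ x).1 δ, ∀ t ∈ ball (sh x) δ, (u', t) ∈ ball (N.Ψ x) δ := by
    intro u' hu t ht
    rw [← N.snd x h1] at ht
    rw [← Prod.mk.eta (p := N.Ψ x), ← ball_prod_same]
    exact ⟨hu, ht⟩
  exact ⟨(N.Ψ x).1, δ, hδ, fun u hu => (h5 _ (h6 u hu _ (mem_ball_self hδ))).2,
    mem_of_superset (ball_mem_nhds _ hδ) fun t ht u hu => (h5 _ (h6 u hu t ht)).1.2⟩

end GBox

theorem exists_PT [T2Space E] (h : d + p = n) {Ω : Set E} (hΩ : IsOpen Ω) (hh : C.HolOn sh Ω)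
    (hF : IsCompact (Ω ∩ sh ⁻¹' {t₁}))
    (hs : ∀ γ a, ∀ z ∈ C.B 4 a, C.pt γ a z ∈ Ω → sh (C.pt γ a z) = t₁ →
      Function.Surjective (fderiv ℂ (fun w => sh (C.pt γ a w)) z))
    {y₀ : E} (hy₀ : y₀ ∈ Ω) (hy₁ : sh y₀ = t₁) :
    ∃ T : PT C d p, T.sh = sh ∧ T.t₁ = t₁ ∧ y₀ ∈ T.U ∧ T.U ⊆ Ω := by
  classical
  have := C.locallyCompact
  set F := Ω ∩ sh ⁻¹' {t₁} with hFd
  have hc : ContinuousOn sh Ω := fun y hy => (hh.continuousAt C hy).continuousWithinAt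
  choose N ρ hρ htgt hm h0 hsub using fun y : F => exists_gbox h hh y.2.1
    (fun γ a z hz e => hs γ a z hz (e ▸ y.2.1) (e ▸ y.2.2)) (hΩ.mem_nhds y.2.1)
  have htgt' : ∀ y, (N y).Ψ.target = ball 0 5 ×ˢ ball t₁ (ρ y) := fun y => by
    rw [htgt, show sh y = t₁ from y.2.2]
  have hin : ∀ y : F, y.1 ∈ (N y).In := fun y => (N y).mem_In.2 ⟨hm y, by rw [h0]; simp⟩
  obtain ⟨s, hcov⟩ := hF.elim_nhds_subcover' (fun y hy => (N ⟨y, hy⟩).In) fun y hy =>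
    (N _).isOpen_In.mem_nhds (hin ⟨y, hy⟩)
  obtain ⟨i₀, hi₀, hy₂⟩ := mem_iUnion₂.1 (hcov ⟨hy₀, hy₁⟩)
  let rel : F → F → Prop := fun i j => i ∈ s ∧ j ∈ s ∧ ∃ x ∈ F, x ∈ (N i).In ∧ x ∈ (N j).In
  let P : F → Prop := fun j => Relation.ReflTransGen rel i₀ j
  have hPs : ∀ j, P j → j ∈ s := fun j hj => by
    cases hj with
    | refl => exact hi₀
    | tail _ h => exact h.2.1
  have hfin : Finite {j // P j} := (s.finite_toSet.subset hPs).to_subtype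
  set U₁ : Set E := ⋃ j : {j // P j}, (N j.1).In with hU₁
  set U₂ : Set E := ⋃ j : {j // j ∈ s ∧ ¬ P j}, (N j.1).In with hU₂
  have o₁ : IsOpen U₁ := isOpen_iUnion fun j => (N _).isOpen_In
  have o₂ : IsOpen U₂ := isOpen_iUnion fun j => (N _).isOpen_In
  have hor : ∀ x ∈ F, x ∈ U₁ ∨ x ∈ U₂ := fun x hx => by
    obtain ⟨j, hj, hx⟩ := mem_iUnion₂.1 (hcov hx)
    by_cases hP : P j
    · exact .inl (mem_iUnion.2 ⟨⟨j, hP⟩, hx⟩)
    · exact .inr (mem_iUnion.2 ⟨⟨j, hj, hP⟩, hx⟩)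
  have hdis : ∀ x ∈ F, x ∈ U₁ → x ∉ U₂ := fun x hx h1 h2 => by
    obtain ⟨i, hi⟩ := mem_iUnion.1 h1
    obtain ⟨j, hj⟩ := mem_iUnion.1 h2
    exact j.2.2 (i.2.tail ⟨hPs _ i.2, j.2.1, x, hx, hi, hj⟩)
  have c₁ : IsCompact (F \ U₂) := hF.diff o₂
  have c₂ : IsCompact (F \ U₁) := hF.diff o₁
  obtain ⟨K, hK, k1, k2⟩ := exists_compact_between c₁ (o₁.inter c₂.isClosed.isOpen_compl)
    fun x hx => ⟨(hor x hx.1).resolve_right hx.2, fun h => h.2 ((hor x hx.1).resolve_right hx.2)⟩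
  have hKΩ : K ⊆ Ω := fun x hx => by
    obtain ⟨j, hj⟩ := mem_iUnion.1 (k2 hx).1
    exact hsub _ hj.1
  have e1 : ∀ᶠ t in 𝓝 t₁, t ∉ sh '' (K \ interior K) := by
    refine ((hK.diff isOpen_interior).image_of_continuousOn
      (hc.mono fun x hx => hKΩ hx.1)).isClosed.isOpen_compl.mem_nhds ?_
    rintro ⟨x, hx, e⟩
    exact hx.2 (k1 ⟨⟨hKΩ hx.1, e⟩, hdis x ⟨hKΩ hx.1, e⟩ (k2 hx.1).1⟩)
  have e2 : ∀ j : {j // P j}, ∀ᶠ t in 𝓝 t₁, ∀ u ∈ closedBall (0 : Cm d) 4,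
      (u, t) ∈ (N j.1).Ψ.target ∧ (N j.1).Ψ.symm (u, t) ∈ interior K := by
    intro j
    have a1 : ∀ u ∈ ball (0 : Cm d) 5, (u, t₁) ∈ (N j.1).Ψ.target := fun u hu =>
      htgt' j.1 ▸ ⟨hu, mem_ball_self (hρ _)⟩
    have a2 : IsPreconnected ((fun u => (N j.1).Ψ.symm (u, t₁)) '' ball (0 : Cm d) 5) :=
      (convex_ball _ _).isPreconnected.image _ ((N j.1).Ψ.continuousOn_symm.comp
        (continuous_id.prodMk continuous_const).continuousOn a1)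
    have a3 : (fun u => (N j.1).Ψ.symm (u, t₁)) '' ball (0 : Cm d) 5 ⊆ F := by
      rintro _ ⟨u, hu, rfl⟩
      exact ⟨hsub _ ((N j.1).Ψ.map_target (a1 u hu)), (N j.1).sh_symm (a1 u hu)⟩
    have a4 := (isPreconnected_iff_subset_of_disjoint_closed.1 a2 _ _ c₁.isClosed c₂.isClosed
      (fun x hx => (hor x (a3 hx)).imp (fun h => ⟨a3 hx, hdis x (a3 hx) h⟩)
        fun h => ⟨a3 hx, fun h' => hdis x (a3 hx) h' h⟩)
      (eq_empty_iff_forall_notMem.2 fun x hx =>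
        (hor x hx.2.1.1).elim hx.2.2.2 hx.2.1.2)).resolve_right fun h => by
          have b1 : j.1.1 ∈ (fun u => (N j.1).Ψ.symm (u, t₁)) '' ball (0 : Cm d) 5 :=
            ⟨0, mem_ball_self (by norm_num), by
              have := (N j.1).left_inv (hm j.1)
              rwa [h0, show sh j.1 = t₁ from j.1.2.2] at this⟩
          exact (h b1).2 (mem_iUnion.2 ⟨j, hin _⟩)
    refine (isCompact_closedBall _ _).eventually_forall_of_forall_eventually fun u hu => ?_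
    have a5 := closedBall_subset_ball (show (4 : ℝ) < 5 by norm_num) hu
    exact (continuous_swap.tendsto (t₁, u)).eventually
      ((N j.1).ev_mem (a1 u a5) isOpen_interior (k1 (a4 ⟨u, a5, rfl⟩)))
  have e3 : ∀ q : {j // P j} × {j // P j}, ∃ u : Cm d, ∃ δ > (0 : ℝ), ball u δ ⊆ ball 0 1 ∧
      ∀ᶠ t in 𝓝 t₁, rel q.1.1 q.2.1 → ∀ u' ∈ ball u δ,
        (N q.1.1).Ψ.symm (u', t) ∈ (N q.2.1).In := by
    intro q
    by_cases hq : rel q.1.1 q.2.1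
    · obtain ⟨-, -, x, hx, x1, x2⟩ := hq
      obtain ⟨u, δ, hδ, a1, a2⟩ := (N _).adj (N _) x1 x2
      rw [show sh x = t₁ from hx.2] at a2
      exact ⟨u, δ, hδ, a1, a2.mono fun t ht _ => ht⟩
    · exact ⟨0, 1, one_pos, Subset.rfl, Eventually.of_forall fun t h => (hq h).elim⟩
  choose u δ hδ hu e3 using e3
  obtain ⟨r, hr, hb⟩ := Metric.eventually_nhds_iff_ball.1
    (e1.and ((eventually_all.2 e2).and (eventually_all.2 e3)))
  have hres : ∀ j : {j // P j}, ball 0 4 ×ˢ ball t₁ r ⊆ (N j.1).Ψ.target := fun j v hv =>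
    ((hb _ hv.2).2.1 j _ (ball_subset_closedBall hv.1)).1
  have hadj : ∀ i j : {j // P j}, rel i.1 j.1 →
      ((N i.1).res t₁ r (hres i)).Adj ((N j.1).res t₁ r (hres j)) := fun i j hij =>
    ⟨u (i, j), δ (i, j), hδ _, hu _, fun u' hu' t ht => by
      obtain ⟨a1, a2⟩ := (N _).mem_In.1 ((hb t ht).2.2 (i, j) hij u' hu')
      refine ⟨((N j.1).res_src _).2 ⟨a1, a2.trans (by norm_num), ?_⟩, a2⟩
      have a3 : sh ((N i.1).Ψ.symm (u', t)) = t := (N i.1).sh_symm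
        (hres i ⟨ball_subset_ball (by norm_num) (hu _ hu'), ht⟩)
      exact a3.symm ▸ ht⟩
  have hnerve : ∀ j (hj : P j), Relation.ReflTransGen (fun i j : {j // P j} =>
      ((N i.1).res t₁ r (hres i)).Adj ((N j.1).res t₁ r (hres j))) ⟨i₀, .refl⟩ ⟨j, hj⟩ ∧
      Relation.ReflTransGen (fun i j : {j // P j} =>
      ((N i.1).res t₁ r (hres i)).Adj ((N j.1).res t₁ r (hres j))) ⟨j, hj⟩ ⟨i₀, .refl⟩ := by
    intro j hj
    induction hj with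
    | refl => exact ⟨.refl, .refl⟩
    | tail h1 h2 ih =>
      obtain ⟨a1, a2, x, hx, x1, x2⟩ := h2
      exact ⟨ih.1.tail (hadj ⟨_, h1⟩ _ ⟨a1, a2, x, hx, x1, x2⟩),
        .head (hadj _ ⟨_, h1⟩ ⟨a2, a1, x, hx, x2, x1⟩) ih.2⟩
  have hU : interior K ⊆ Ω := interior_subset.trans hKΩ
  refine ⟨⟨interior K ∩ sh ⁻¹' ball t₁ r, sh, t₁, r, hr,
    (hc.mono hU).isOpen_inter_preimage isOpen_interior isOpen_ball,
    fun γ a z hz hy => hh γ a z hz (hU hy.1), {j // P j}, hfin, ⟨i₀, .refl⟩,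
    fun j => (N j.1).res t₁ r (hres j), fun j y hy => ?_, fun y hy => ?_,
    fun i j => (hnerve i.1 i.2).2.trans (hnerve j.1 j.2).1, fun L hL hL' => ?_⟩, rfl, rfl,
    ⟨k1 ⟨⟨hy₀, hy₁⟩, hdis _ ⟨hy₀, hy₁⟩ (mem_iUnion.2 ⟨⟨i₀, .refl⟩, hy₂⟩)⟩, ?_⟩,
    fun y hy => hU hy.1⟩
  · obtain ⟨a1, a2, a3⟩ := ((N j.1).res_src _).1 hy
    have := ((hb _ a3).2.1 j _ (mem_closedBall_zero_iff.2 a2.le)).2
    rw [(N j.1).left_inv a1] at this
    exact ⟨this, a3⟩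
  · obtain ⟨j, hj⟩ := mem_iUnion.1 (k2 (interior_subset hy.1)).1
    obtain ⟨a1, a2⟩ := (N _).mem_In.1 hj
    exact ⟨j, ((N j.1).res_src _).2 ⟨a1, a2.trans (by norm_num), hy.2⟩, a2⟩
  · have e : interior K ∩ sh ⁻¹' ball t₁ r ∩ sh ⁻¹' L = K ∩ sh ⁻¹' L :=
      Subset.antisymm (fun y hy => ⟨interior_subset hy.1.1, hy.2⟩) fun y hy =>
        ⟨⟨by_contra fun h => (hb _ (hL' hy.2)).1 ⟨y, ⟨hy.1, h⟩, rfl⟩, hL' hy.2⟩, hy.2⟩
    rw [e]
    exact hK.of_isClosed_subset ((hc.mono hKΩ).preimage_isClosed_of_isClosed hK.isClosed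
      hL.isClosed) inter_subset_left
  · show sh y₀ ∈ ball t₁ r
    rw [hy₁]
    exact mem_ball_self hr

end Vale.Agent.P284Y.Tb
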